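import Crest.Agent.X262.Loc95.Slc
import Crest.Agent.X262.Top.Defs
import Crest.Agent.X262.Hor83.Main
import Crest.Agent.X262.Sark27.Term
import Crest.Agent.X277.Unf.Main

/-!
# Row 262, BND (helper43): the surface end of the subadjunction bound

* `Th b H T s` : `T ≥ s K` at the primes of the `H`-model;
* `i1` : `s K · D ≤ T · D`; `third` : contracted curves of a K3 surface have coefficient `≥ 1/3`;
* `i2` : `s d ≤ 3 T · L`; `i3` : `r d ∣ B · L`.
-/

set_option autoImplicit false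
set_option linter.unusedSectionVars false

open scoped KaehlerDifferential

noncomputable section

namespace Crest.Agent.X262.SubE

open Crest.Agent.X277 Crest.Agent.X277.BD Crest.Agent.X277.Pst Crest.Agent.X277.Lef
open Crest.Agent.X277.BD.Br (On oP kP)
open Crest.Agent.X262.Mod (IsMod Car LeOn EqOn)
open Crest.Agent.X262.Geo Crest.Agent.X262.Slc57
open Crest.Agent.X262.Loc (AdjAt cfg ex2 mem_ex2 mx2)
open Crest.Agent.X262.Top (K3)
open Finset

variable {S : Type} [Field S] [Algebra ℂ S] [Algebra.EssFiniteType ℂ S]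
variable {H T D B a : BD ℂ S} {s r d : ℕ} {w e : RZ ℂ S}

/-- `T ≥ s K` at the primes of the `H`-model -/
def Th (b : Module.Basis (Fin 2) S Ω[S⁄ℂ]) (H T : BD ℂ S) (s : ℕ) : Prop :=
  ∀ (Q : PModel ℂ S) (w : RZ ℂ S), Prm (oP Q) w → Prm H w → s * od w (kP Q b) ≤ od w T

/-- adjunction on smooth surfaces -/
def Adj2 (b : Module.Basis (Fin 2) S Ω[S⁄ℂ]) : Prop :=
  ∀ (Q : PModel ℂ S) (H : BD ℂ S), H.Free → H ∈ On Q → AdjAt Q (kP Q b) H 0

theorem dim2 (b : Module.Basis (Fin 2) S Ω[S⁄ℂ]) : dim ℂ S = 2 := by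
  simpa using Module.finrank_eq_card_basis b

theorem dg_off (hd : dim ℂ S = 2) {P : PModel ℂ S} (ha : a ∈ On P) (hw : Dvs w)
    (h : ¬ Prm (oP P) w) : dg w [a] = 0 := Hor83.dg_car hd Br.free_oP (car_of_On ha) hw h

/-- **(I1)** -/
theorem i1 {b : Module.Basis (Fin 2) S Ω[S⁄ℂ]} (hH : H.Free) (h : Th b H T s) (hD : Nef D)
    (h1 : Car H D) {Q : PModel ℂ S} (h2 : D ∈ On Q) : s * bnum [kP Q b, D] ≤ bnum [T, D] := by
  rw [← sub_nonneg, ← bnum_nsmul, ← bnum_sub]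
  obtain ⟨U, -, h3, -, h4⟩ := exists_cyc (T - s • kP Q b) [D] ∅ (by simp)
  rw [h4]
  refine sum_nonneg fun V hV => ?_
  by_cases h5 : Prm H V
  · by_cases h6 : Prm (oP Q) V
    · refine mul_nonneg ?_ (dg_nonneg (by simpa using hD))
      rw [map_sub, map_nsmul, nsmul_eq_mul, sub_nonneg]
      exact h Q V h6 h5
    · rw [dg_off (dim2 b) h2 (h3 V hV) h6, mul_zero]
  · rw [Hor83.dg_car (dim2 b) hH h1 (h3 V hV) h5, mul_zero]

variable (X : K3 S d)

theorem num_eq (ha : a ∈ On X.P) : ∃ c : ℤ, ∀ a' ∈ On X.P, bnum [a, a'] = c * bnum [X.L, a'] := by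
  obtain ⟨c, h⟩ := X.gen a ha
  exact ⟨c, fun a' ha' => by rw [← sub_eq_zero, ← bnum_zsmul, ← bnum_sub, h a' ha']⟩

include X in
theorem d_pos : (0 : ℤ) < d := by
  obtain ⟨c, h⟩ := num_eq X (a := oP X.P) Br.oP_mem
  have h1 := X.L_pos
  rw [bnum_swap, h _ X.L_on, X.L_sq] at h1
  exact (Int.natCast_nonneg d).lt_of_ne fun h2 => by simp [← h2] at h1

/-- the class of a curve is a positive multiple of the generator -/
theorem exists_cls (hw : Prm (oP X.P) w) : ∃ c : ℤ, 0 < c ∧ dg w [X.L] = c * d ∧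
    bnum [dv X.P w, dv X.P w] = c * c * d := by
  obtain ⟨c, h⟩ := num_eq X (dv_mem (P := X.P) w)
  obtain ⟨c₀, h₀⟩ := num_eq X (a := oP X.P) Br.oP_mem
  have h1 : bnum [dv X.P w, X.L] = c * d := by rw [h _ X.L_on, X.L_sq]
  have h2 := dg_oP_pos (d := 1) hw (dim2 X.b)
  rw [List.replicate_one, ← bnum_dv hw (by simpa using Br.oP_mem), h _ Br.oP_mem] at h2
  exact ⟨c, (mul_pos_iff_of_pos_right X.L_pos).1 h2, by rw [← h1, bnum_dv hw (by simpa using X.L_on)],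
    by rw [h _ (dv_mem w), bnum_swap, h1, mul_assoc]⟩

/-- **(I3)** -/
theorem i3 (h : ∀ w, Prm (oP X.P) w → (r : ℤ) ∣ od w B) : (r * d : ℤ) ∣ bnum [B, X.L] := by
  obtain ⟨U, -, h3, -, h4⟩ := exists_cyc B [X.L] ∅ (by simp)
  rw [h4]
  refine dvd_sum fun V hV => ?_
  by_cases h5 : Prm (oP X.P) V
  · obtain ⟨c, -, h6, -⟩ := exists_cls X h5
    exact mul_dvd_mul (h V h5) (h6 ▸ dvd_mul_left _ _)
  · rw [dg_off (dim2 X.b) X.L_on (h3 V hV) h5, mul_zero]
    exact dvd_zero _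

/-- contracted curves of a K3 surface of Picard number one -/
theorem third (hA : Adj2 X.b) (hH : IsMod H) (hT : Car H T) (hs : 0 < s) (h : Th X.b H T s)
    (he : Prm (oP X.P) e) (h1 : ¬ Prm H e) : s ≤ 3 * (od e T - s * od e (kP X.P X.b)) := by
  classical
  have hd : dim ℂ S = 0 + 2 := dim2 X.b
  obtain ⟨Q, hQ⟩ := Unf.exists_on {oP X.P, H, T}
  have hP : oP X.P ∈ On Q := hQ _ (by simp)
  have hH' : H ∈ On Q := hQ _ (by simp)
  have hT' : T ∈ On Q := hQ _ (by simp)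
  have hK : kP Q X.b ∈ On Q := Br.kP_mem _
  have hK' : kP X.P X.b ∈ On Q := Br.On_le_iff.2 hP (Br.kP_mem _)
  have he' := prm_up hP he
  set C := cfg hH hH' hd hK (hA Q H hH.free hH') with hC
  let f : RZ ℂ S → ℤ := fun V => if Prm H V then od V (T - s • kP Q X.b) else 0
  let Θ : BD ℂ S := ∑ V ∈ sp Q (T - s • kP Q X.b), f V • dv Q V
  have hΘ : ∀ W, Prm (oP Q) W → od W Θ = f W := fun W hW =>
    od_sum_dv hW _ f fun h2 => by
      simp only [f]
      split_ifs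
      · exact by_contra fun h3 => h2 (mem_sp.2 ⟨hW, h3⟩)
      · rfl
  have hΘ0 : 0 ≤ Θ := nonneg_On (sum_dv_mem _ _) fun W hW => by
    rw [hΘ W hW]
    simp only [f]
    split_ifs with h2
    · rw [map_sub, map_nsmul, nsmul_eq_mul, sub_nonneg]
      exact h Q W hW h2
    · rfl
  have hC1 : ∀ V ∈ C.s, Prm (oP Q) V ∧ ¬ Prm H V ∧ dim ℂ (Loc.cen H V) = 0 := fun V =>
    (Loc.mem_cfg hH hH' hd hK _).1
  have hΘ1 : ∀ V ∈ C.s, od V Θ = 0 := fun V hV => by
    rw [hΘ V (hC1 V hV).1]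
    exact if_neg (hC1 V hV).2.1
  have hs' : (0 : ℚ) < s := Nat.cast_pos.2 hs
  have sol := (Loc.cfg_sol hH hH' hd hK (hA Q H hH.free hH') (t := C.s) (a := s • kP Q X.b + Θ)
    (add_mem (nsmul_mem hK s) (sum_dv_mem _ _)) hT' one_pos (fun V hV => (hC1 V hV).1)
    (fun V hV => Loc.dg_car hH.free (hC1 V hV).1.dvs (hC1 V hV).2.2.le hT)
    fun V _ W hW h2 h3 => Loc.mem_ex2_of_mt hH hH' hd (fun h4 => h2 (by
      rw [one_nsmul, ← sub_sub, map_sub, hΘ W hW]
      simp only [f, if_pos h4, sub_self])) h3).smul (1 / s)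
  have hes : e ∈ C.s := (Loc.mem_cfg hH hH' hd hK _).2
    ⟨he', h1, Nat.le_zero.1 (Loc.dim_cen_le hH he.dvs h1 hd)⟩
  have heX : e ∉ ex2 Q 0 (isMod_oP X.P) := fun h2 => (mem_ex2.1 h2).2.1 he
  have h3 := Cfg.third (C := C) (θ := fun j => dg j [Θ] / s)
    (α := fun i => od i (kP Q X.b - kP X.P X.b)) (z := fun i => od i (dv X.P e))
    (X := ex2 Q 0 (isMod_oP X.P)) subset_rfl hes heX (fun i hi => ?_) (fun j hj => ?_)
    (fun x => ?_) (by exact_mod_cast od_dv_self he) ?_ (fun j hj => ?_) (sol.congr fun j hj => ?_)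
  · simp only [Pi.smul_apply, smul_eq_mul, one_nsmul, map_sub, map_add, map_nsmul, nsmul_eq_mul,
      hΘ1 e hes, (od_eq_iff he.dvs).2 (Sark27.kP_eq_val X.b he' he)] at h3
    rw [Nat.cast_one, div_one, add_zero, one_div, one_div, ← div_eq_inv_mul, le_div_iff₀ hs',
      inv_mul_le_iff₀ (by norm_num)] at h3
    exact_mod_cast h3
  · obtain ⟨h4, h5, -⟩ := mem_ex2.1 hi
    rw [Int.cast_pos, map_sub, sub_pos, od_lt_iff h4.dvs]
    exact Sark27.kP_lt_val X.b h4 h5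
  · have h4 := Loc.dg_exc (isMod_oP X.P) hP hd (hC1 j hj).1 (sub_mem hK hK')
      (Mod.eqOn_sub.2 fun V hV => Sark27.kP_eq_val X.b (prm_up hP hV) hV)
    rw [dg_sub, Lin.dg_eq X.can, dg_zero, sub_zero] at h4
    rw [Loc.cfg_k hH hH' hd hK _ (hC1 j hj).1]
    exact_mod_cast h4
  · by_cases h4 : ∃ i ∈ ex2 Q 0 (isMod_oP X.P), x i ≠ 0
    · exact ((cfg (isMod_oP X.P) hP hd hK (hA Q _ Br.free_oP hP)).neg x h4).le
    · push Not at h4
      exact (sum_eq_zero fun i hi => sum_eq_zero fun j _ => by rw [h4 i hi]; simp).le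
  · obtain ⟨c, h4, -, h5⟩ := exists_cls X he
    have h6 := eq_sum_dv (P := Q) (Br.On_le_iff.2 hP (dv_mem e))
      (T := insert e (ex2 Q 0 (isMod_oP X.P))) fun V h6 h7 => mem_insert.2 (by
        by_cases h8 : Prm (oP X.P) V
        · exact Or.inl (by_contra fun h9 => h7 (od_dv_ne h8 h9))
        · exact Or.inr (mem_ex2.2 ⟨h6, h8,
            Nat.le_zero.1 (Loc.dim_cen_le (isMod_oP X.P) h6.dvs h8 hd)⟩))
    have h7 : bnum [dv X.P e, dv X.P e] = ∑ i ∈ insert e (ex2 Q 0 (isMod_oP X.P)),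
        ∑ j ∈ insert e (ex2 Q 0 (isMod_oP X.P)),
          od i (dv X.P e) * od j (dv X.P e) * C.M i j := by
      conv_lhs => rw [h6, bnum_sum]
      refine sum_congr rfl fun i _ => ?_
      rw [bnum_zsmul, bnum_swap, bnum_sum, mul_sum]
      refine sum_congr rfl fun j _ => ?_
      rw [bnum_zsmul, bnum_swap, mul_assoc]
      rfl
    have h8 : 0 < bnum [dv X.P e, dv X.P e] := h5 ▸ mul_pos (mul_pos h4 h4) (d_pos X)
    rw [h7] at h8
    simp only [Cfg.Q]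
    exact_mod_cast h8
  · exact div_nonneg (Int.cast_nonneg (dg_nonneg_of hΘ0
      ((od_eq_zero (hC1 j hj).1.dvs).1 (hΘ1 j hj)) (by simp))) hs'.le
  · rw [Loc.cfg_k hH hH' hd hK _ (hC1 j hj).1]
    simp only [Pi.smul_apply, smul_eq_mul, List.replicate_zero, dg_add, dg_nsmul]
    push_cast
    field_simp

/-- **(I2)** -/
theorem i2 (hA : Adj2 X.b) (hH : IsMod H) (hT : Car H T) (hs : 0 < s) (h : Th X.b H T s)
    (h1 : ∃ w, Prm (oP X.P) w ∧ (¬ Prm H w ∨ (s : ℤ) ≤ 3 * (od w T - s * od w (kP X.P X.b)))) :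
    (s * d : ℤ) ≤ 3 * bnum [T, X.L] := by
  obtain ⟨w, h2, h3⟩ := h1
  have h4 : (s : ℤ) ≤ 3 * (od w T - s * od w (kP X.P X.b)) :=
    h3.elim (third X hA hH hT hs h h2) id
  have e : ∀ V, od V (T - s • kP X.P X.b) = od V T - s * od V (kP X.P X.b) := fun V => by
    rw [map_sub, map_nsmul, nsmul_eq_mul]
  obtain ⟨U, h5, h6, -, h7⟩ :=
    exists_cyc (T - s • kP X.P X.b) [X.L] {w} (by simpa using h2.dvs)
  rw [bnum_sub, bnum_nsmul, X.can.bnum_eq, bnum_zero, mul_zero, sub_zero] at h7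
  have h8 := single_le_sum (f := fun V => od V (T - s • kP X.P X.b) * dg V [X.L])
    (fun V hV => ?_) (h5 (mem_singleton_self w))
  · obtain ⟨c, h9, h10, -⟩ := exists_cls X h2
    rw [← h7, h10, e] at h8
    have h11 := d_pos X
    have h12 : (0 : ℤ) < s := Int.natCast_pos.2 hs
    nlinarith [mul_le_mul_of_nonneg_right h4 (mul_pos h9 h11).le, mul_pos h12 h11]
  · by_cases h9 : Prm (oP X.P) V
    · obtain ⟨c, h10, h11, -⟩ := exists_cls X h9
      refine mul_nonneg ?_ (h11 ▸ (mul_pos h10 (d_pos X)).le)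
      rw [e]
      by_cases h12 : Prm H V
      · exact sub_nonneg.2 (h _ V h9 h12)
      · have := third X hA hH hT hs h h9 h12
        omega
    · rw [dg_off (dim2 X.b) X.L_on (h6 V hV) h9, mul_zero]

end Crest.Agent.X262.SubE
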